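import Crest.Agent.H0066.Far

set_option autoImplicit false

namespace Crest.Agent.H0066

lemma rowc_swap (D : Finset (ℕ × ℕ)) (r : ℕ) : rowc (D.image Prod.swap) r = colc D r := by
  unfold rowc colc
  rw [Finset.filter_image, Finset.card_image_of_injective _ Prod.swap_injective]
  rfl

lemma colc_swap (D : Finset (ℕ × ℕ)) (r : ℕ) : colc (D.image Prod.swap) r = rowc D r := by
  unfold rowc colc
  rw [Finset.filter_image, Finset.card_image_of_injective _ Prod.swap_injective]
  rfl

namespace Par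
variable {p : Par}

lemma exists_bad_rows (D : Finset (ℕ × ℕ)) (hD : D.card < p.N * p.N) :
    ∃ UB : Finset ℕ, UB.card < 2 * p.N ∧
      ∀ u t, u < 10 * p.N → t < p.T → u ∉ UB → 2 * rowc D (p.idx u t) ≤ p.N := by
  refine ⟨((Finset.range p.P2).filter (fun r => p.N < 2 * rowc D r)).image
    (fun r => (r - p.P1) / p.T), ?_, ?_⟩
  · exact lt_of_le_of_lt Finset.card_image_le
      (card_bad_rows D p.N hD _ fun r hr => (Finset.mem_filter.mp hr).2)
  · intro u t hu ht hUB
    by_contra hcon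
    exact hUB (Finset.mem_image.mpr ⟨p.idx u t,
      Finset.mem_filter.mpr ⟨Finset.mem_range.mpr (idx_lt hu ht), by omega⟩, idx_div ht⟩)

lemma exists_bad_cols (D : Finset (ℕ × ℕ)) (hD : D.card < p.N * p.N) :
    ∃ UB : Finset ℕ, UB.card < 2 * p.N ∧
      ∀ u t, u < 10 * p.N → t < p.T → u ∉ UB → 2 * colc D (p.idx u t) ≤ p.N := by
  refine ⟨((Finset.range p.P2).filter (fun r => p.N < 2 * colc D r)).image
    (fun r => (r - p.P1) / p.T), ?_, ?_⟩
  · exact lt_of_le_of_lt Finset.card_image_le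
      (card_bad_cols D p.N hD _ fun r hr => (Finset.mem_filter.mp hr).2)
  · intro u t hu ht hUB
    by_contra hcon
    exact hUB (Finset.mem_image.mpr ⟨p.idx u t,
      Finset.mem_filter.mpr ⟨Finset.mem_range.mpr (idx_lt hu ht), by omega⟩, idx_div ht⟩)

lemma exists_good_cell (D : Finset (ℕ × ℕ)) (hD : D.card < p.N * p.N) (UB VB : Finset ℕ)
    (hU : UB.card < 2 * p.N) (hV : VB.card < 2 * p.N) (b s t : ℕ) (hs : s < p.T) (ht : t < p.T) :
    ∃ u v, b ≤ u ∧ u < b + 3 * p.N ∧ b ≤ v ∧ v < b + 3 * p.N ∧ u ∉ UB ∧ v ∉ VB ∧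
      (p.idx u s, p.idx v t) ∉ D := by
  set GU := Finset.Ico b (b + 3 * p.N) \ UB with hGU
  set GV := Finset.Ico b (b + 3 * p.N) \ VB with hGV
  have h1 : p.N ≤ GU.card := by
    have := Finset.le_card_sdiff UB (Finset.Ico b (b + 3 * p.N))
    rw [Nat.card_Ico, ← hGU] at this
    omega
  have h2 : p.N ≤ GV.card := by
    have := Finset.le_card_sdiff VB (Finset.Ico b (b + 3 * p.N))
    rw [Nat.card_Ico, ← hGV] at this
    omega
  have hinj : Function.Injective (fun q : ℕ × ℕ => (p.idx q.1 s, p.idx q.2 t)) := by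
    rintro ⟨u, v⟩ ⟨u', v'⟩ h
    simp only [Prod.mk.injEq] at h ⊢
    constructor
    · rw [← idx_div (u := u) hs, h.1, idx_div hs]
    · rw [← idx_div (u := v) ht, h.2, idx_div ht]
  have h3 : D.card < ((GU ×ˢ GV).image (fun q : ℕ × ℕ => (p.idx q.1 s, p.idx q.2 t))).card := by
    rw [Finset.card_image_of_injective _ hinj, Finset.card_product]
    exact lt_of_lt_of_le hD (Nat.mul_le_mul h1 h2)
  obtain ⟨q, hq1, hq2⟩ := Finset.exists_mem_notMem_of_card_lt_card h3
  obtain ⟨⟨u, v⟩, hq3, rfl⟩ := Finset.mem_image.mp hq1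
  obtain ⟨hu, hv⟩ := Finset.mem_product.mp hq3
  have hu' := Finset.mem_sdiff.mp hu
  have hv' := Finset.mem_sdiff.mp hv
  have hu'' := Finset.mem_Ico.mp hu'.1
  have hv'' := Finset.mem_Ico.mp hv'.1
  exact ⟨u, v, hu''.1, hu''.2, hv''.1, hv''.2, hu'.2, hv'.2, hq2⟩

lemma exists_change (P : ℕ → Prop) (k : ℕ) (h0 : P 0) (hk : ¬ P k) :
    ∃ a, a < k ∧ P a ∧ ¬ P (a + 1) := by
  induction k with
  | zero => exact absurd h0 hk
  | succ k ih =>
    by_cases h : P k
    · exact ⟨k, by omega, h, hk⟩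
    · obtain ⟨a, h1, h2⟩ := ih h
      exact ⟨a, by omega, h2⟩

theorem far_copy (hN : 0 < p.N) (hP : 124 * p.N ≤ p.P) (hm : 2 ^ p.m = 16 * p.N)
    (B : ℕ → ℕ → Prop) (D : Finset (ℕ × ℕ)) (hD : D.card < p.N * p.N)
    (hB : ∀ r c, r < p.n → c < p.n → (r, c) ∉ D → (B r c ↔ p.Rel true r c)) :
    HasCopy p.n B := by
  obtain ⟨UB, hU, gU⟩ := exists_bad_rows D hD
  obtain ⟨VB, hV, gV⟩ := exists_bad_cols D hD
  have hT : p.T = p.m + 4 := rfl
  obtain ⟨ua, va, -, a2, -, a4, a5, a6, a7⟩ :=
    exists_good_cell D hD UB VB hU hV 0 0 0 (by omega) (by omega)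
  obtain ⟨ub, vb, b1, b2, b3, b4, b5, b6, b7⟩ :=
    exists_good_cell D hD UB VB hU hV (7 * p.N) (p.m + 2) (p.m + 3) (by omega) (by omega)
  obtain ⟨u0, c1, c2⟩ : ∃ u0, u0 ∈ Finset.Ico (3 * p.N) (7 * p.N) ∧
      u0 ∉ UB ∪ VB.image (fun v => 10 * p.N - 1 - v) := by
    apply Finset.exists_mem_notMem_of_card_lt_card
    have h1 := Finset.card_union_le UB (VB.image (fun v => 10 * p.N - 1 - v))
    have h2 : (VB.image (fun v => 10 * p.N - 1 - v)).card ≤ VB.card := Finset.card_image_le
    rw [Nat.card_Ico]; omega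
  have c3 := Finset.mem_Ico.mp c1
  have c4 : u0 ∉ UB := fun h => c2 (Finset.mem_union_left _ h)
  set v0 := 10 * p.N - 1 - u0 with hv0
  have c5 : v0 ∉ VB := fun h => c2 (Finset.mem_union_right _
    (Finset.mem_image.mpr ⟨v0, h, by omega⟩))
  set u : ℕ → ℕ := fun a => if a ≤ 1 then ua else if a ≤ 2 * p.m + 3 then u0 else ub with hu
  set v : ℕ → ℕ := fun a => if a < 1 then va else if a ≤ 2 * p.m + 4 then v0 else vb with hv
  have uUB : ∀ a, u a ∉ UB := fun a => by simp only [hu]; split_ifs <;> assumption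
  have vVB : ∀ a, v a ∉ VB := fun a => by simp only [hv]; split_ifs <;> assumption
  have ult : ∀ a, u a < 10 * p.N := fun a => by simp only [hu]; split_ifs <;> omega
  have vlt : ∀ a, v a < 10 * p.N := fun a => by simp only [hv]; split_ifs <;> omega
  have umono : ∀ a, u a ≤ u (a + 1) := fun a => by simp only [hu]; split_ifs <;> omega
  have vmono : ∀ a, v a ≤ v (a + 1) := fun a => by simp only [hv]; split_ifs <;> omega
  have hn := P2_lt_n hN
  have hor : ∀ a, cond p.m a (3 * p.N + u0) ∨ cond p.m a (3 * p.N + v0) :=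
    cond_or (by omega)
  obtain ⟨a, ha, p1, p2⟩ := exists_change
    (fun a => B (p.idx (u a) (a / 2)) (p.idx (v a) ((a + 1) / 2))) (2 * p.m + 5)
    (by
      have e1 : u 0 = ua := by simp [hu]
      have e2 : v 0 = va := by simp [hv]
      have t0 : 0 < p.T := by omega
      simp only [e1, e2]
      norm_num
      have l1 := idx_lt (p := p) (u := ua) (by omega) t0
      have l2 := idx_lt (p := p) (u := va) (by omega) t0
      rw [hB _ _ (by omega) (by omega) a7, Rel_core _ (idx_ge _ _) (idx_ge _ _), ct_idx t0,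
        ct_idx t0]
      exact ⟨l1, l2, by omega, by omega, M_zero _ _ _⟩)
    (by
      have e1 : u (2 * p.m + 5) = ub := by simp [hu]
      have e2 : v (2 * p.m + 5) = vb := by simp [hv]
      have e3 : (2 * p.m + 5) / 2 = p.m + 2 := by omega
      have e4 : (2 * p.m + 5 + 1) / 2 = p.m + 3 := by omega
      have t1 : p.m + 2 < p.T := by omega
      have t2 : p.m + 3 < p.T := by omega
      simp only [e1, e2, e3, e4]
      have l1 := idx_lt (p := p) (u := ub) (by omega) t1
      have l2 := idx_lt (p := p) (u := vb) (by omega) t2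
      rw [hB _ _ (by omega) (by omega) b7, Rel_core _ (idx_ge _ _) (idx_ge _ _), ct_idx t1,
        ct_idx t2, cx_idx t1, cx_idx t2]
      have e5 : p.m + 2 + (p.m + 3) = 2 * p.m + 5 := by omega
      rw [e5]
      exact fun h => M_last (by omega) (by omega) h.2.2.2.2)
  rcases Nat.mod_two_eq_zero_or_one a with h2 | h2
  · have e1 : u (a + 1) = u a := by simp only [hu]; split_ifs <;> first | rfl | omega
    have e2 : a / 2 = (a + 1) / 2 := by omega
    have e3 : (a + 1 + 1) / 2 = a / 2 + 1 := by omega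
    rw [e1, e3] at p2
    refine step_copy hN hP true B D hD hB a (u a) (v a) (v (a + 1)) (by simp [h2]) (by omega)
      (ult _) (vmono _) (vlt _) (gU _ _ (ult _) (by omega) (uUB _))
      (gV _ _ (vlt _) (by omega) (vVB _)) (gV _ _ (vlt _) (by omega) (vVB _)) ?_ ?_ p2
    · by_cases h3 : a < 2 ∨ 2 * p.m + 3 ≤ a
      · exact Or.inl (cond_triv _ h3)
      · have f1 : u a = u0 := by simp only [hu]; split_ifs <;> first | rfl | omega
        have f2 : v a = v0 := by simp only [hv]; split_ifs <;> first | rfl | omega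
        have f3 : v (a + 1) = v0 := by simp only [hv]; split_ifs <;> first | rfl | omega
        rw [f1, f2, f3, and_self]
        exact hor a
    · rw [← e2] at p1 ⊢; exact p1
  · have e1 : v (a + 1) = v a := by simp only [hv]; split_ifs <;> first | rfl | omega
    have e2 : (a + 1 + 1) / 2 = (a + 1) / 2 := by omega
    have e3 : (a + 1) / 2 = a / 2 + 1 := by omega
    rw [e1, e2] at p2
    apply HasCopy.symm
    refine step_copy hN hP false (fun r c => B c r) (D.image Prod.swap)
      (lt_of_le_of_lt Finset.card_image_le hD) ?_ a (v a) (u a) (u (a + 1)) (by simp [h2])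
      (by omega) (vlt _) (umono _) (ult _)
      (by rw [rowc_swap]; exact gV _ _ (vlt _) (by omega) (vVB _))
      (by rw [colc_swap]; exact gU _ _ (ult _) (by omega) (uUB _))
      (by rw [colc_swap]; exact gU _ _ (ult _) (by omega) (uUB _)) ?_ p1 (by rw [← e3]; exact p2)
    · intro r c hr hc hrc
      rw [hB c r hc hr (fun h => hrc (Finset.mem_image.mpr ⟨(c, r), h, rfl⟩)), Rel_symm]
      rfl
    · by_cases h3 : a < 2 ∨ 2 * p.m + 3 ≤ a
      · exact Or.inl (cond_triv _ h3)
      · have f1 : u a = u0 := by simp only [hu]; split_ifs <;> first | rfl | omega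
        have f2 : v a = v0 := by simp only [hv]; split_ifs <;> first | rfl | omega
        have f3 : u (a + 1) = u0 := by simp only [hu]; split_ifs <;> first | rfl | omega
        rw [f1, f2, f3, and_self]
        exact (hor a).symm

end Par

end Crest.Agent.H0066
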