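import Mathlib

set_option autoImplicit false

namespace Crest.Agent.H0066

/-- The pattern, on natural-number indices. -/
def Hn (i j : ℕ) : Bool :=
  if i = 0 then decide (min j 64 % 2 = 0)
  else if j = 0 then decide (min i 64 % 2 = 0)
  else if i < 62 ∨ j < 62 then decide (i ≠ j)
  else if i < 64 then (if j < 64 then true else decide (i + 2 = j))
  else if j < 64 then decide (j + 2 = i)
  else decide (i = 64 ∧ j = 64)

lemma Hn_symm (i j : ℕ) : Hn i j = Hn j i := by
  unfold Hn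
  split_ifs <;> first | rfl | omega | (simp only [decide_eq_decide]; omega)

/-- threshold matrices along the chain -/
def M (m a x y : ℕ) : Prop :=
  if a ≤ m + 2 then 2 ^ (a - 2) ≤ x / 2 ^ (m - (a - 2)) + y / 2 ^ (m - (a - 2)) + 1
  else 2 ^ (2 * m + 3 - a) ≤ x / 2 ^ (m - (2 * m + 3 - a)) + y / 2 ^ (m - (2 * m + 3 - a))

def cond (m a x : ℕ) : Prop :=
  (2 ≤ a → a < m + 2 → (x / 2 ^ (m - (a - 1))) % 2 = 1) ∧
  (m + 3 ≤ a → a ≤ 2 * m + 2 → (x / 2 ^ (m - (2 * m + 3 - a))) % 2 = 0)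

lemma M_symm (m a x y : ℕ) : M m a x y ↔ M m a y x := by
  unfold M; split_ifs <;> rw [add_comm (x / _)]

lemma M_mono {m a x y x' y' : ℕ} (hx : x ≤ x') (hy : y ≤ y') (h : M m a x y) : M m a x' y' := by
  unfold M at *
  split_ifs at * with ha
  · have h1 := Nat.div_le_div_right (c := 2 ^ (m - (a - 2))) hx
    have h2 := Nat.div_le_div_right (c := 2 ^ (m - (a - 2))) hy
    omega
  · have h1 := Nat.div_le_div_right (c := 2 ^ (m - (2 * m + 3 - a))) hx
    have h2 := Nat.div_le_div_right (c := 2 ^ (m - (2 * m + 3 - a))) hy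
    omega

lemma div_pow_succ (x k : ℕ) : x / 2 ^ (k + 1) = x / 2 ^ k / 2 := by
  rw [pow_succ, Nat.div_div_eq_div_mul]

/-- one step of the chain at a fixed cell -/
lemma M_step {m a x y : ℕ} (ha : a ≠ m + 2) (hc : cond m a x ∨ cond m a y) (h : M m a x y) :
    M m (a + 1) x y := by
  unfold M at *
  unfold cond at hc
  rcases Nat.lt_or_ge a 2 with h2 | h2
  · have e1 : a - 2 = 0 := by omega
    have e2 : a + 1 - 2 = 0 := by omega
    rw [if_pos (by omega), e2]; simp
  rcases Nat.lt_or_ge a (m + 2) with h3 | h3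
  · rw [if_pos (by omega)] at h ⊢
    obtain ⟨j, rfl⟩ : ∃ j, a = j + 2 := ⟨a - 2, by omega⟩
    obtain ⟨k, rfl⟩ : ∃ k, m = j + 1 + k := ⟨m - (j + 1), by omega⟩
    have e1 : j + 2 - 2 = j := by omega
    have e2 : j + 2 + 1 - 2 = j + 1 := by omega
    have e3 : j + 2 - 1 = j + 1 := by omega
    have e4 : j + 1 + k - j = k + 1 := by omega
    have e5 : j + 1 + k - (j + 1) = k := by omega
    rw [e1, e4, div_pow_succ, div_pow_succ] at h
    rw [e2, e5, pow_succ]
    rw [e3, e5] at hc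
    rcases hc with hc | hc
    · have := hc.1 (by omega) (by omega); omega
    · have := hc.1 (by omega) (by omega); omega
  rw [if_neg (by omega)] at h ⊢
  rcases Nat.lt_or_ge a (2 * m + 3) with h4 | h4
  · obtain ⟨j, hj⟩ : ∃ j, 2 * m + 3 - a = j + 1 := ⟨2 * m + 2 - a, by omega⟩
    have e2 : 2 * m + 3 - (a + 1) = j := by omega
    obtain ⟨k, hk⟩ : ∃ k, m - (j + 1) = k := ⟨_, rfl⟩
    have e4 : m - j = k + 1 := by omega
    rw [hj, hk, pow_succ] at h
    rw [hj, hk] at hc
    rw [e2, e4, div_pow_succ, div_pow_succ]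
    rcases hc with hc | hc
    · have := hc.2 (by omega) (by omega); omega
    · have := hc.2 (by omega) (by omega); omega
  · have e1 : 2 * m + 3 - a = 0 := by omega
    have e2 : 2 * m + 3 - (a + 1) = 0 := by omega
    rw [e1] at h; rw [e2]; exact h

lemma M_zero (m x y : ℕ) : M m 0 x y := by
  unfold M; rw [if_pos (by omega)]; simp

lemma M_last {m x y : ℕ} (hx : x < 2 ^ m) (hy : y < 2 ^ m) : ¬ M m (2 * m + 5) x y := by
  unfold M; rw [if_neg (by omega)]
  have e1 : 2 * m + 3 - (2 * m + 5) = 0 := by omega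
  rw [e1]; simp [Nat.div_eq_of_lt hx, Nat.div_eq_of_lt hy]

lemma M_mid {m x y : ℕ} : M m (m + 2) x y ↔ 2 ^ m ≤ x + y + 1 := by
  unfold M; rw [if_pos le_rfl]; simp

lemma M_mid' {m x y : ℕ} : M m (m + 2 + 1) x y ↔ 2 ^ m ≤ x + y := by
  unfold M; rw [if_neg (by omega)]
  have e1 : 2 * m + 3 - (m + 2 + 1) = m := by omega
  rw [e1]; simp

/-- complementary indices have complementary bits -/
lemma div_add_div_of_add {m x y : ℕ} (h : x + y + 1 = 2 ^ m) :
    ∀ k, k ≤ m → x / 2 ^ k + y / 2 ^ k + 1 = 2 ^ (m - k) := by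
  intro k
  induction k with
  | zero => intro _; simpa using h
  | succ k ih =>
    intro hk
    have h1 := ih (by omega)
    have e : m - k = (m - (k + 1)) + 1 := by omega
    rw [e, pow_succ] at h1
    rw [div_pow_succ, div_pow_succ]
    omega

lemma cond_or {m x y : ℕ} (h : x + y + 1 = 2 ^ m) (a : ℕ) : cond m a x ∨ cond m a y := by
  unfold cond
  rcases Nat.lt_or_ge a 2 with h2 | h2
  · left; constructor <;> intros <;> omega
  rcases Nat.lt_or_ge a (m + 2) with h3 | h3
  · have h1 := div_add_div_of_add h (m - (a - 1)) (by omega)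
    have e : m - (m - (a - 1)) = (a - 2) + 1 := by omega
    rw [e, pow_succ] at h1
    rcases Nat.mod_two_eq_zero_or_one (x / 2 ^ (m - (a - 1))) with h4 | h4
    · right; constructor <;> intros <;> omega
    · left; constructor <;> intros <;> omega
  rcases Nat.lt_or_ge a (m + 3) with h4 | h4
  · left; constructor <;> intros <;> omega
  rcases Nat.lt_or_ge (2 * m + 2) a with h5 | h5
  · left; constructor <;> intros <;> omega
  · have h1 := div_add_div_of_add h (m - (2 * m + 3 - a)) (by omega)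
    have e : m - (m - (2 * m + 3 - a)) = (2 * m + 2 - a) + 1 := by omega
    rw [e, pow_succ] at h1
    rcases Nat.mod_two_eq_zero_or_one (x / 2 ^ (m - (2 * m + 3 - a))) with h4 | h4
    · left; constructor <;> intros <;> omega
    · right; constructor <;> intros <;> omega

lemma cond_triv {m a : ℕ} (x : ℕ) (h : a < 2 ∨ 2 * m + 3 ≤ a) : cond m a x := by
  unfold cond; constructor <;> intros <;> omega

/-- parameters of the host matrix -/
structure Par where
  m : ℕ
  N : ℕ
  P : ℕ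

namespace Par
variable (p : Par)

def S : ℕ := 4 * p.m + 10
def T : ℕ := p.m + 4
def Q : ℕ := p.P + p.S * (2 * p.N)
def P1 : ℕ := p.P + 2 * p.S * (2 * p.N)
def P2 : ℕ := p.P1 + 10 * p.N * p.T
def n : ℕ := p.P2 + 2 * p.N

def band (r : ℕ) : ℕ :=
  if r < p.P then min (r / (2 * p.N)) 61 else if r < p.Q then 62 else if r < p.P1 then 63 else 64

def sub (r : ℕ) : ℕ := (r - p.P) / (2 * p.N)
def ms (r : ℕ) : ℕ := p.sub r % p.S / 2
def mw (r : ℕ) : ℕ := p.sub r % p.S % 2
def cx (r : ℕ) : ℕ := 3 * p.N + (r - p.P1) / p.T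
def ct (r : ℕ) : ℕ := (r - p.P1) % p.T

def role (e : Bool) (i a w r : ℕ) : Prop :=
  if (a % 2 = 0 ↔ e = true) then
    (if i = 0 then r < p.P2 ∧ p.ct r = (a + 1) / 2 ∧ (w = 0 → cond p.m a (p.cx r)) else p.P2 ≤ r)
  else r < p.P2 ∧ p.ct r = a / 2 + i ∧ (w = 0 → cond p.m a (p.cx r))

def Rel (e : Bool) (r c : ℕ) : Prop :=
  if p.band r < 62 ∨ p.band c < 62 then Hn (p.band r) (p.band c) = true
  else if p.band r < 64 then
    (if p.band c < 64 then p.ms r = p.ms c ∧ p.mw r ≠ p.mw c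
     else p.role (!e) (p.band r - 62) (p.ms r) (p.mw r) c)
  else if p.band c < 64 then p.role e (p.band c - 62) (p.ms c) (p.mw c) r
  else r < p.P2 ∧ c < p.P2 ∧ p.ct r ≤ p.ct c + 1 ∧ p.ct c ≤ p.ct r + 1 ∧
    M p.m (p.ct r + p.ct c) (p.cx r) (p.cx c)

lemma Rel_symm (e : Bool) (r c : ℕ) : p.Rel e r c ↔ p.Rel (!e) c r := by
  unfold Rel
  by_cases h1 : p.band r < 62 ∨ p.band c < 62
  · rw [if_pos h1, if_pos h1.symm, Hn_symm]
  · have h1' : ¬ (p.band c < 62 ∨ p.band r < 62) := fun h => h1 h.symm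
    rw [if_neg h1, if_neg h1']
    by_cases h2 : p.band r < 64 <;> by_cases h3 : p.band c < 64 <;>
      simp only [h2, h3, if_true, if_false, Bool.not_not]
    · constructor <;> rintro ⟨a, b⟩ <;> exact ⟨a.symm, b.symm⟩
    · rw [add_comm (p.ct c) (p.ct r), M_symm p.m _ (p.cx c)]
      tauto

lemma band_le (r : ℕ) : p.band r ≤ 64 := by
  unfold band; split_ifs <;> omega

lemma P_le_Q : p.P ≤ p.Q := by unfold Q; omega
lemma Q_le_P1 : p.Q ≤ p.P1 := by unfold Q P1; nlinarith [Nat.zero_le (p.S * (2 * p.N))]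
lemma P1_le_P2 : p.P1 ≤ p.P2 := by unfold P2; omega

lemma band_mono {r r' : ℕ} (h : r ≤ r') : p.band r ≤ p.band r' := by
  have h1 := Nat.div_le_div_right (c := 2 * p.N) h
  have := p.P_le_Q; have := p.Q_le_P1
  unfold band; split_ifs <;> omega

lemma band_lt_62 {r : ℕ} : p.band r < 62 ↔ r < p.P := by
  unfold band; split_ifs <;> omega

lemma band_lt_63 {r : ℕ} : p.band r < 63 ↔ r < p.Q := by
  have := p.P_le_Q
  unfold band; split_ifs <;> omega

lemma band_lt_64 {r : ℕ} : p.band r < 64 ↔ r < p.P1 := by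
  have := p.P_le_Q; have := p.Q_le_P1
  unfold band; split_ifs <;> omega

end Par

end Crest.Agent.H0066
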