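import Mathlib

set_option autoImplicit false

namespace Crest.Agent.H0066

open Finset

def rowc (D : Finset (ℕ × ℕ)) (r : ℕ) : ℕ := (D.filter (fun q => q.1 = r)).card
def colc (D : Finset (ℕ × ℕ)) (c : ℕ) : ℕ := (D.filter (fun q => q.2 = c)).card

lemma card_filter_fst (D : Finset (ℕ × ℕ)) (F : Finset ℕ) :
    (D.filter (fun q => q.1 ∈ F)).card = ∑ r ∈ F, rowc D r := by
  rw [Finset.card_eq_sum_card_fiberwise (f := Prod.fst) (t := F)]
  · refine Finset.sum_congr rfl fun r hr => ?_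
    unfold rowc
    rw [Finset.filter_filter]
    congr 1
    refine Finset.filter_congr fun q _ => ?_
    constructor
    · exact fun h => h.2
    · exact fun h => ⟨h ▸ hr, h⟩
  · intro q hq
    simpa using (Finset.mem_filter.mp hq).2

lemma card_filter_snd (D : Finset (ℕ × ℕ)) (F : Finset ℕ) :
    (D.filter (fun q => q.2 ∈ F)).card = ∑ r ∈ F, colc D r := by
  rw [Finset.card_eq_sum_card_fiberwise (f := Prod.snd) (t := F)]
  · refine Finset.sum_congr rfl fun r hr => ?_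
    unfold colc
    rw [Finset.filter_filter]
    congr 1
    refine Finset.filter_congr fun q _ => ?_
    constructor
    · exact fun h => h.2
    · exact fun h => ⟨h ▸ hr, h⟩
  · intro q hq
    simpa using (Finset.mem_filter.mp hq).2

lemma sum_le_of_two {F : Finset ℕ} {g : ℕ → ℕ} {N : ℕ} (hF : F.card ≤ 2)
    (h : ∀ r ∈ F, 2 * g r ≤ N) : ∑ r ∈ F, g r ≤ N := by
  have h1 : ∑ r ∈ F, 2 * g r ≤ F.card • N := Finset.sum_le_card_nsmul _ _ _ h
  rw [← Finset.mul_sum, smul_eq_mul] at h1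
  nlinarith

lemma select_col (D : Finset (ℕ × ℕ)) (N : ℕ) (hN : 0 < N) (FR : Finset ℕ) (hFR : FR.card ≤ 2)
    (gR : ∀ r ∈ FR, 2 * rowc D r ≤ N) (b : ℕ) :
    ∃ c, b ≤ c ∧ c < b + 2 * N ∧ (∀ r ∈ FR, (r, c) ∉ D) ∧
      colc D c * N ≤ (D.filter (fun q => q.2 ∈ Finset.Ico b (b + 2 * N))).card := by
  set dirty := (D.filter (fun q => q.1 ∈ FR)).image Prod.snd with hd
  have h1 : dirty.card ≤ N :=
    Finset.card_image_le.trans (by rw [card_filter_fst]; exact sum_le_of_two hFR gR)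
  set clean := Finset.Ico b (b + 2 * N) \ dirty with hc
  have h2 : N ≤ clean.card := by
    have := Finset.le_card_sdiff dirty (Finset.Ico b (b + 2 * N))
    rw [Nat.card_Ico, ← hc] at this
    omega
  obtain ⟨c, hc1, hc2⟩ := Finset.exists_min_image clean (colc D) (Finset.card_pos.mp (by omega))
  have hc3 := Finset.mem_sdiff.mp hc1
  have hc4 := Finset.mem_Ico.mp hc3.1
  refine ⟨c, hc4.1, hc4.2, fun r hr hq => hc3.2 ?_, ?_⟩
  · exact Finset.mem_image.mpr ⟨(r, c), Finset.mem_filter.mpr ⟨hq, hr⟩, rfl⟩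
  · rw [card_filter_snd]
    calc colc D c * N ≤ clean.card • colc D c := by rw [smul_eq_mul]; nlinarith
      _ ≤ ∑ r ∈ clean, colc D r := Finset.card_nsmul_le_sum _ _ _ hc2
      _ ≤ _ := Finset.sum_le_sum_of_subset Finset.sdiff_subset

lemma select (D : Finset (ℕ × ℕ)) (N : ℕ) (hD : D.card < N * N) (FR FC : Finset ℕ)
    (hFR : FR.card ≤ 2) (hFC : FC.card ≤ 2)
    (gR : ∀ r ∈ FR, 2 * rowc D r ≤ N) (gC : ∀ c ∈ FC, 2 * colc D c ≤ N)
    (bR bC : ℕ → ℕ) (k : ℕ) (hb : ∀ i j, i < j → j < k → bC i + 2 * N ≤ bC j) :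
    ∃ R C : ℕ → ℕ, (∀ i, bR i ≤ R i ∧ R i < bR i + 2 * N) ∧ (∀ i, bC i ≤ C i ∧ C i < bC i + 2 * N) ∧
      (∀ i j, j < k → (R i, C j) ∉ D) ∧ (∀ r ∈ FR, ∀ j, (r, C j) ∉ D) ∧
      (∀ i, ∀ c ∈ FC, (R i, c) ∉ D) := by
  have hN : 0 < N := by
    rcases Nat.eq_zero_or_pos N with h | h
    · subst h; simp at hD
    · exact h
  choose C hC1 hC2 hC3 hC4 using fun j => select_col D N hN FR hFR gR (bC j)
  have hsum : (∑ j ∈ Finset.range k, colc D (C j)) * N ≤ D.card := by
    rw [Finset.sum_mul]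
    refine (Finset.sum_le_sum fun j _ => hC4 j).trans ?_
    rw [← Finset.card_biUnion]
    · exact Finset.card_le_card (Finset.biUnion_subset.mpr fun j _ => Finset.filter_subset _ _)
    · intro i hi j hj hij
      simp only [Finset.coe_range, Set.mem_Iio] at hi hj
      rw [Function.onFun, Finset.disjoint_left]
      intro q h1 h2
      have h1 := Finset.mem_Ico.mp (Finset.mem_filter.mp h1).2
      have h2 := Finset.mem_Ico.mp (Finset.mem_filter.mp h2).2
      rcases lt_or_gt_of_ne hij with h | h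
      · have := hb i j h hj; omega
      · have := hb j i h hi; omega
  have hsum' : ∑ j ∈ Finset.range k, colc D (C j) < N := by
    by_contra hcon
    have : N * N ≤ (∑ j ∈ Finset.range k, colc D (C j)) * N :=
      Nat.mul_le_mul_right _ (by omega)
    omega
  set Z := (D.filter (fun q => q.2 ∈ FC ∪ (Finset.range k).image C)).image Prod.fst with hZ
  have hZc : Z.card < 2 * N := by
    refine lt_of_le_of_lt Finset.card_image_le ?_
    rw [card_filter_snd]
    have h1 : ∑ r ∈ FC ∪ (Finset.range k).image C, colc D r ≤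
        ∑ r ∈ FC, colc D r + ∑ r ∈ (Finset.range k).image C, colc D r := by
      rw [← Finset.sum_union_inter]; omega
    have h2 : ∑ r ∈ (Finset.range k).image C, colc D r ≤ ∑ j ∈ Finset.range k, colc D (C j) :=
      Finset.sum_image_le_of_nonneg fun _ _ => Nat.zero_le _
    have h3 := sum_le_of_two hFC gC
    omega
  have hrow : ∀ b : ℕ, ∃ r, b ≤ r ∧ r < b + 2 * N ∧ r ∉ Z := by
    intro b
    have : Z.card < (Finset.Ico b (b + 2 * N)).card := by rw [Nat.card_Ico]; omega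
    obtain ⟨r, h1, h2⟩ := Finset.exists_mem_notMem_of_card_lt_card this
    exact ⟨r, (Finset.mem_Ico.mp h1).1, (Finset.mem_Ico.mp h1).2, h2⟩
  choose R hR1 hR2 hR3 using fun i => hrow (bR i)
  refine ⟨R, C, fun i => ⟨hR1 i, hR2 i⟩, fun i => ⟨hC1 i, hC2 i⟩, ?_, ?_, ?_⟩
  · intro i j hj hq
    refine hR3 i (Finset.mem_image.mpr ⟨(R i, C j), Finset.mem_filter.mpr ⟨hq, ?_⟩, rfl⟩)
    exact Finset.mem_union_right _ (Finset.mem_image.mpr ⟨j, Finset.mem_range.mpr hj, rfl⟩)
  · intro r hr j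
    exact hC3 j r hr
  · intro i c hc hq
    refine hR3 i (Finset.mem_image.mpr ⟨(R i, c), Finset.mem_filter.mpr ⟨hq, ?_⟩, rfl⟩)
    exact Finset.mem_union_left _ hc

/-- few rows are bad -/
lemma card_bad_rows (D : Finset (ℕ × ℕ)) (N : ℕ) (hD : D.card < N * N) (F : Finset ℕ)
    (h : ∀ r ∈ F, N < 2 * rowc D r) : F.card < 2 * N := by
  have h1 : F.card • N ≤ ∑ r ∈ F, 2 * rowc D r :=
    Finset.card_nsmul_le_sum _ _ _ fun r hr => (h r hr).le
  rw [← Finset.mul_sum, ← card_filter_fst, smul_eq_mul] at h1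
  have h2 := Finset.card_filter_le D (fun q => q.1 ∈ F)
  by_contra hcon
  have : 2 * N * N ≤ F.card * N := Nat.mul_le_mul_right _ (by omega)
  nlinarith

lemma card_bad_cols (D : Finset (ℕ × ℕ)) (N : ℕ) (hD : D.card < N * N) (F : Finset ℕ)
    (h : ∀ r ∈ F, N < 2 * colc D r) : F.card < 2 * N := by
  have h1 : F.card • N ≤ ∑ r ∈ F, 2 * colc D r :=
    Finset.card_nsmul_le_sum _ _ _ fun r hr => (h r hr).le
  rw [← Finset.mul_sum, ← card_filter_snd, smul_eq_mul] at h1
  have h2 := Finset.card_filter_le D (fun q => q.2 ∈ F)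
  by_contra hcon
  have : 2 * N * N ≤ F.card * N := Nat.mul_le_mul_right _ (by omega)
  nlinarith

end Crest.Agent.H0066
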