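import Crest.Agent.H0066.Structure
import Crest.Agent.H0066.Select

set_option autoImplicit false

namespace Crest.Agent.H0066

def HasCopy (n : ℕ) (B : ℕ → ℕ → Prop) : Prop :=
  ∃ R C : ℕ → ℕ, (∀ i j, i < j → j < 66 → R i < R j) ∧ (∀ i j, i < j → j < 66 → C i < C j) ∧
    R 65 < n ∧ C 65 < n ∧ ∀ i j, i < 66 → j < 66 → (B (R i) (C j) ↔ Hn i j = true)

lemma HasCopy.symm {n : ℕ} {B : ℕ → ℕ → Prop} (h : HasCopy n (fun r c => B c r)) : HasCopy n B := by
  obtain ⟨R, C, h1, h2, h3, h4, h5⟩ := h
  exact ⟨C, R, h2, h1, h4, h3, fun i j hi hj => by rw [Hn_symm]; exact h5 j i hj hi⟩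

namespace Par
variable (p : Par)

def idx (u t : ℕ) : ℕ := p.P1 + u * p.T + t

def base (a w i : ℕ) : ℕ :=
  if i < 62 then i * (2 * p.N)
  else if i < 64 then p.P + ((i - 62) * p.S + 2 * a + w) * (2 * p.N) else p.P2

variable {p}

lemma T_pos : 0 < p.T := by unfold T; omega

lemma idx_ge (u t : ℕ) : p.P1 ≤ p.idx u t := by unfold idx; omega

lemma idx_lt {u t : ℕ} (hu : u < 10 * p.N) (ht : t < p.T) : p.idx u t < p.P2 := by
  unfold idx P2
  have : (u + 1) * p.T ≤ 10 * p.N * p.T := Nat.mul_le_mul_right _ hu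
  nlinarith

lemma idx_div {u t : ℕ} (ht : t < p.T) : (p.idx u t - p.P1) / p.T = u := by
  unfold idx
  have : p.P1 + u * p.T + t - p.P1 = t + u * p.T := by omega
  rw [this, Nat.add_mul_div_right _ _ T_pos, Nat.div_eq_of_lt ht, zero_add]

lemma cx_idx {u t : ℕ} (ht : t < p.T) : p.cx (p.idx u t) = 3 * p.N + u := by
  unfold cx; rw [idx_div ht]

lemma ct_idx {u t : ℕ} (ht : t < p.T) : p.ct (p.idx u t) = t := by
  unfold ct idx
  have : p.P1 + u * p.T + t - p.P1 = t + u * p.T := by omega
  rw [this, Nat.add_mul_mod_self_right, Nat.mod_eq_of_lt ht]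

lemma idx_lt_idx {u u' t t' : ℕ} (hu : u ≤ u') (ht : t < t') : p.idx u t < p.idx u' t' := by
  unfold idx
  have : u * p.T ≤ u' * p.T := Nat.mul_le_mul_right _ hu
  omega

lemma P2_lt_n (hN : 0 < p.N) : p.P2 < p.n := by unfold n; omega

lemma base_le_P1 (hP : 124 * p.N ≤ p.P) {a w i : ℕ} (haw : 2 * a + w < p.S) (hi : i < 64) :
    p.base a w i + 2 * p.N ≤ p.P1 := by
  unfold base P1
  split_ifs with h1
  · have : (i + 1) * (2 * p.N) ≤ 62 * (2 * p.N) := Nat.mul_le_mul_right _ (by omega)
    nlinarith [Nat.zero_le (2 * p.S * (2 * p.N))]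
  · have h2 : (i - 62) * p.S ≤ 1 * p.S := Nat.mul_le_mul_right _ (by omega)
    have : ((i - 62) * p.S + 2 * a + w + 1) * (2 * p.N) ≤ (2 * p.S) * (2 * p.N) :=
      Nat.mul_le_mul_right _ (by omega)
    nlinarith

lemma base_step (hP : 124 * p.N ≤ p.P) {a w : ℕ} (haw : 2 * a + w < p.S) :
    ∀ i j, i < j → j < 65 → p.base a w i + 2 * p.N ≤ p.base a w j := by
  intro i j hij hj
  rcases Nat.lt_or_ge j 64 with h | h
  · unfold base
    by_cases h1 : j < 62
    · rw [if_pos h1, if_pos (by omega)]
      have : (i + 1) * (2 * p.N) ≤ j * (2 * p.N) := Nat.mul_le_mul_right _ (by omega)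
      nlinarith
    · rw [if_neg h1, if_pos h]
      by_cases h2 : i < 62
      · rw [if_pos h2]
        have : (i + 1) * (2 * p.N) ≤ 62 * (2 * p.N) := Nat.mul_le_mul_right _ (by omega)
        nlinarith [Nat.zero_le (((j - 62) * p.S + 2 * a + w) * (2 * p.N))]
      · rw [if_neg h2, if_pos (by omega)]
        have e1 : i - 62 = 0 := by omega
        have e2 : j - 62 = 1 := by omega
        rw [e1, e2]
        have : (0 * p.S + 2 * a + w + 1) * (2 * p.N) ≤ (1 * p.S + 2 * a + w) * (2 * p.N) :=
          Nat.mul_le_mul_right _ (by omega)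
        nlinarith
  · have h1 := base_le_P1 hP haw (i := i) (by omega)
    have h2 := p.P1_le_P2
    have : p.base a w j = p.P2 := by unfold base; rw [if_neg (by omega), if_neg (by omega)]
    omega

lemma base_anchor (hP : 124 * p.N ≤ p.P) {a w i r : ℕ} (hi : i < 62)
    (h1 : p.base a w i ≤ r) (h2 : r < p.base a w i + 2 * p.N) : p.band r = i := by
  unfold base at h1 h2
  rw [if_pos hi] at h1 h2
  have h3 : (i + 1) * (2 * p.N) ≤ 62 * (2 * p.N) := Nat.mul_le_mul_right _ (by omega)
  have h4 : r / (2 * p.N) = i := Nat.div_eq_of_lt_le h1 (by nlinarith)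
  unfold band
  rw [if_pos (by nlinarith), h4]; omega

lemma base_marker (hN : 0 < p.N) {a w i r : ℕ} (haw : 2 * a + w < p.S) (hw : w < 2) (hi : 62 ≤ i)
    (hi' : i < 64) (h1 : p.base a w i ≤ r) (h2 : r < p.base a w i + 2 * p.N) :
    p.band r = i ∧ p.ms r = a ∧ p.mw r = w := by
  unfold base at h1 h2
  rw [if_neg (by omega), if_pos hi'] at h1 h2
  have hr : p.P ≤ r := by omega
  have h4 : p.sub r = (i - 62) * p.S + 2 * a + w := by
    unfold sub
    apply Nat.div_eq_of_lt_le
    · omega
    · rw [Nat.add_mul _ 1]; omega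
  have h5 : p.sub r % p.S = 2 * a + w := by
    rw [h4, add_assoc, add_comm, Nat.add_mul_mod_self_right, Nat.mod_eq_of_lt haw]
  refine ⟨?_, by unfold ms; omega, by unfold mw; omega⟩
  have q1 := sub_lt_S hN hr
  have q2 := sub_lt_2S hN hr
  unfold band
  rcases (by omega : i = 62 ∨ i = 63) with rfl | rfl
  · norm_num at h4; split_ifs <;> omega
  · norm_num at h4; split_ifs <;> omega

lemma Hn_min : ∀ i j : Fin 66, (i.val < 62 ∨ j.val < 62) → Hn (min i 64) (min j 64) = Hn i j := by
  decide

lemma step_copy (hN : 0 < p.N) (hP : 124 * p.N ≤ p.P) (e : Bool) (B : ℕ → ℕ → Prop)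
    (D : Finset (ℕ × ℕ)) (hD : D.card < p.N * p.N)
    (hB : ∀ r c, r < p.n → c < p.n → (r, c) ∉ D → (B r c ↔ p.Rel e r c))
    (a u v v' : ℕ) (he : a % 2 = 0 ↔ e = true) (ha : a ≤ 2 * p.m + 4)
    (hu : u < 10 * p.N) (hv : v ≤ v') (hv' : v' < 10 * p.N)
    (g1 : 2 * rowc D (p.idx u ((a + 1) / 2)) ≤ p.N)
    (g2 : 2 * colc D (p.idx v (a / 2)) ≤ p.N) (g3 : 2 * colc D (p.idx v' (a / 2 + 1)) ≤ p.N)
    (hc : cond p.m a (3 * p.N + u) ∨ (cond p.m a (3 * p.N + v) ∧ cond p.m a (3 * p.N + v')))
    (b1 : B (p.idx u ((a + 1) / 2)) (p.idx v (a / 2)))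
    (b2 : ¬ B (p.idx u ((a + 1) / 2)) (p.idx v' (a / 2 + 1))) : HasCopy p.n B := by
  obtain ⟨wr, wc, hwr, hwc, hne, hc1, hc2⟩ : ∃ wr wc : ℕ, wr < 2 ∧ wc < 2 ∧ wr ≠ wc ∧
      (wc = 0 → cond p.m a (3 * p.N + u)) ∧
      (wr = 0 → cond p.m a (3 * p.N + v) ∧ cond p.m a (3 * p.N + v')) := by
    rcases hc with hc | hc
    · exact ⟨1, 0, by omega, by omega, by omega, fun _ => hc, by omega⟩
    · exact ⟨0, 1, by omega, by omega, by omega, by omega, fun _ => hc⟩
  have hS : p.S = 4 * p.m + 10 := rfl
  have hT : p.T = p.m + 4 := rfl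
  have t1 : (a + 1) / 2 < p.T := by omega
  have t2 : a / 2 < p.T := by omega
  have t3 : a / 2 + 1 < p.T := by omega
  set r0 := p.idx u ((a + 1) / 2) with hr0
  set c1 := p.idx v (a / 2) with hc1'
  set c2 := p.idx v' (a / 2 + 1) with hc2'
  obtain ⟨R, C, hR, hC, d1, d2, d3⟩ := select D p.N hD {r0} {c1, c2} (by simp)
    Finset.card_le_two (by simpa using g1) (by simp [g2, g3]) (p.base a wr) (p.base a wc) 65
    (base_step hP (by omega))
  have sR := base_step (p := p) hP (a := a) (w := wr) (by omega)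
  have sC := base_step (p := p) hP (a := a) (w := wc) (by omega)
  have r0a : p.P1 ≤ r0 := idx_ge _ _
  have r0b : r0 < p.P2 := idx_lt hu t1
  have c1a : p.P1 ≤ c1 := idx_ge _ _
  have c1b : c1 < p.P2 := idx_lt (by omega) t2
  have c2a : p.P1 ≤ c2 := idx_ge _ _
  have c2b : c2 < p.P2 := idx_lt hv' t3
  have c12 : c1 < c2 := idx_lt_idx hv (by omega)
  have hn : p.n = p.P2 + 2 * p.N := rfl
  have b64 : ∀ w, p.base a w 64 = p.P2 := fun w => by unfold base; simp
  have R64 := hR 64
  rw [b64] at R64
  have RP1 : ∀ i, i < 64 → R i < p.P1 := fun i hi => by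
    have := base_le_P1 (p := p) hP (a := a) (w := wr) (by omega) hi
    have := hR i; omega
  have CP1 : ∀ i, i < 64 → C i < p.P1 := fun i hi => by
    have := base_le_P1 (p := p) hP (a := a) (w := wc) (by omega) hi
    have := hC i; omega
  have P12 := p.P1_le_P2
  set R' : ℕ → ℕ := fun i => if i < 64 then R i else if i = 64 then r0 else R 64 with hR'
  set C' : ℕ → ℕ := fun i => if i < 64 then C i else if i = 64 then c1 else c2 with hC'
  have R'lt : ∀ i, R' i < p.n := fun i => by
    simp only [hR']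
    split_ifs with h1 h2
    · have := RP1 i h1; omega
    · omega
    · omega
  have C'lt : ∀ i, C' i < p.n := fun i => by
    simp only [hC']
    split_ifs with h1 h2
    · have := CP1 i h1; omega
    · omega
    · omega
  have bandR : ∀ i, p.band (R' i) = min i 64 := fun i => by
    simp only [hR']
    split_ifs with h1 h2
    · rcases Nat.lt_or_ge i 62 with h3 | h3
      · rw [base_anchor hP h3 (hR i).1 (hR i).2]; omega
      · rw [(base_marker hN (by omega) hwr h3 h1 (hR i).1 (hR i).2).1]; omega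
    · rw [band_dummy r0a]; omega
    · rw [band_dummy (by omega)]; omega
  have bandC : ∀ i, p.band (C' i) = min i 64 := fun i => by
    simp only [hC']
    split_ifs with h1 h2
    · rcases Nat.lt_or_ge i 62 with h3 | h3
      · rw [base_anchor hP h3 (hC i).1 (hC i).2]; omega
      · rw [(base_marker hN (by omega) hwc h3 h1 (hC i).1 (hC i).2).1]; omega
    · rw [band_dummy c1a]; omega
    · rw [band_dummy c2a]; omega
  refine ⟨R', C', ?_, ?_, R'lt 65, C'lt 65, ?_⟩
  · intro i j hij hj
    simp only [hR']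
    split_ifs with h1 h2 h3 h4 h5 <;> try omega
    · have := sR i j hij (by omega); have := hR i; have := hR j; omega
    · have := RP1 i h1; omega
    · have := RP1 i h1; omega
  · intro i j hij hj
    simp only [hC']
    split_ifs with h1 h2 h3 h4 h5 <;> try omega
    · have := sC i j hij (by omega); have := hC i; have := hC j; omega
    · have := CP1 i h1; omega
    · have := CP1 i h1; omega
  intro i j hi hj
  by_cases hspec : i = 64 ∧ 64 ≤ j
  · obtain ⟨rfl, h2⟩ := hspec
    rcases (by omega : j = 64 ∨ j = 65) with rfl | rfl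
    · have : Hn 64 64 = true := by decide
      simpa [hR', hC', this] using b1
    · have : Hn 64 65 = false := by decide
      simpa [hR', hC', this] using b2
  have hnd : (R' i, C' j) ∉ D := by
    simp only [hR', hC']
    split_ifs with h1 h2 h3 h4 h5 h6 h7 h8
    · exact d1 i j (by omega)
    · exact d3 i c1 (by simp)
    · exact d3 i c2 (by simp)
    · exact d2 r0 (by simp) j
    · omega
    · omega
    · exact d1 64 j (by omega)
    · exact d3 64 c1 (by simp)
    · exact d3 64 c2 (by simp)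
  rw [hB _ _ (R'lt i) (C'lt j) hnd]
  by_cases hanch : i < 62 ∨ j < 62
  · unfold Rel
    rw [bandR, bandC, if_pos (by omega), Hn_min ⟨i, hi⟩ ⟨j, hj⟩ hanch]
  have mR : ∀ i, 62 ≤ i → i < 64 → p.ms (R' i) = a ∧ p.mw (R' i) = wr := fun i h1 h2 => by
    simp only [hR', h2, if_true]
    exact (base_marker hN (by omega) hwr h1 h2 (hR i).1 (hR i).2).2
  have mC : ∀ i, 62 ≤ i → i < 64 → p.ms (C' i) = a ∧ p.mw (C' i) = wc := fun i h1 h2 => by
    simp only [hC', h2, if_true]
    exact (base_marker hN (by omega) hwc h1 h2 (hC i).1 (hC i).2).2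
  have he' : ¬ (a % 2 = 0 ↔ (!e) = true) := by
    rw [he]; cases e <;> simp
  have eR64 : R' 64 = r0 := by simp [hR']
  have eR65 : R' 65 = R 64 := by simp [hR']
  have eC64 : C' 64 = c1 := by simp [hC']
  have eC65 : C' 65 = c2 := by simp [hC']
  have x1 : p.ct r0 = (a + 1) / 2 := ct_idx t1
  have x2 : p.ct c1 = a / 2 := ct_idx t2
  have x3 : p.ct c2 = a / 2 + 1 := ct_idx t3
  have y1 : p.cx r0 = 3 * p.N + u := cx_idx t1
  have y2 : p.cx c1 = 3 * p.N + v := cx_idx t2
  have y3 : p.cx c2 = 3 * p.N + v' := cx_idx t3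
  have nR : ¬ R 64 < p.P2 := by omega
  have nr0 : ¬ p.P2 ≤ r0 := by omega
  unfold Rel
  rw [bandR, bandC, if_neg (by omega)]
  by_cases hi64 : i < 64
  · rw [if_pos (by omega), (mR i (by omega) hi64).1, (mR i (by omega) hi64).2]
    by_cases hj64 : j < 64
    · rw [if_pos (by omega), (mC j (by omega) hj64).1, (mC j (by omega) hj64).2]
      have : Hn i j = true := by
        unfold Hn; split_ifs <;> first | rfl | omega
      simp [this, hne]
    · rw [if_neg (by omega)]
      unfold role
      rw [if_neg he']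
      rcases (by omega : i = 62 ∨ i = 63) with rfl | rfl <;>
        rcases (by omega : j = 64 ∨ j = 65) with rfl | rfl
      · rw [eC64, x2, y2]
        have : Hn 62 64 = true := by decide
        simp only [this, c1b, true_and, iff_true]
        exact ⟨by norm_num, fun h => (hc2 h).1⟩
      · rw [eC65, x3]
        have : Hn 62 65 = false := by decide
        simp [this]
      · rw [eC64, x2]
        have : Hn 63 64 = false := by decide
        simp [this]
      · rw [eC65, x3, y3]
        have : Hn 63 65 = true := by decide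
        simp only [this, c2b, true_and, iff_true]
        exact ⟨by norm_num, fun h => (hc2 h).2⟩
  · rw [if_neg (by omega)]
    by_cases hj64 : j < 64
    · rw [if_pos (by omega), (mC j (by omega) hj64).1, (mC j (by omega) hj64).2]
      unfold role
      rw [if_pos he]
      rcases (by omega : i = 64 ∨ i = 65) with rfl | rfl <;>
        rcases (by omega : j = 62 ∨ j = 63) with rfl | rfl
      · rw [eR64, x1, y1]
        have : Hn 64 62 = true := by decide
        simp only [this, r0b, true_and, iff_true]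
        simpa using hc1
      · rw [eR64]
        have : Hn 64 63 = false := by decide
        simp [this, r0b]
      · rw [eR65]
        have : Hn 65 62 = false := by decide
        simp [this, nR]
      · rw [eR65]
        have : Hn 65 63 = true := by decide
        simp [this, R64.1]
    · rw [if_neg (by omega)]
      have : i = 65 := by omega
      subst this
      rw [eR65]
      have : Hn 65 j = false := by
        rcases (by omega : j = 64 ∨ j = 65) with rfl | rfl <;> decide
      simp [this, nR]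

end Par

end Crest.Agent.H0066
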