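import Crest.Agent.H0066.Chain
import Crest.Prelude.Def_OrderedMatrix

set_option autoImplicit false

namespace Crest.Agent.H0066

open Crest.CombinatoricsR.OrderedMatrix

def H : Fin 66 → Fin 66 → Bool := fun i j => Hn i j

open Classical in
noncomputable def A (p : Par) (n : ℕ) : Fin n → Fin n → Bool := fun r c => decide (p.Rel true r c)

def par (h : ℕ) : Par := ⟨h + 4, 2 ^ h, (360 * h - 184) * 2 ^ h⟩

lemma par_n (h : ℕ) (hh : 1 ≤ h) : (par h).n = (386 * h + 2) * 2 ^ h := by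
  obtain ⟨k, rfl⟩ : ∃ k, h = k + 1 := ⟨h - 1, by omega⟩
  unfold Par.n Par.P2 Par.P1 Par.S Par.T par
  have : 360 * (k + 1) - 184 = 360 * k + 176 := by omega
  simp only [this]
  ring

lemma par_P (h : ℕ) (hh : 1 ≤ h) : 124 * (par h).N ≤ (par h).P := by
  unfold par
  exact Nat.mul_le_mul_right _ (by omega)

lemma par_m (h : ℕ) : 2 ^ (par h).m = 16 * (par h).N := by
  unfold par
  simp only [pow_add]
  ring

lemma not_hasCopy {n : ℕ} (B : Fin n → Fin n → Bool) (hB : orderedCopyCount H B = 0) :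
    ¬ HasCopy n (fun r c => ∃ (hr : r < n) (hc : c < n), B ⟨r, hr⟩ ⟨c, hc⟩ = true) := by
  rintro ⟨R, C, h1, h2, h3, h4, h5⟩
  have hR : ∀ i : Fin 66, R i < n := fun i => by
    rcases Nat.lt_or_ge i 65 with h | h
    · exact (h1 i 65 h (by omega)).trans h3
    · have : (i : ℕ) = 65 := by omega
      rw [this]; exact h3
  have hC : ∀ i : Fin 66, C i < n := fun i => by
    rcases Nat.lt_or_ge i 65 with h | h
    · exact (h2 i 65 h (by omega)).trans h4
    · have : (i : ℕ) = 65 := by omega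
      rw [this]; exact h4
  unfold orderedCopyCount at hB
  rw [Fintype.card_eq_zero_iff] at hB
  refine hB.false ⟨(fun i => ⟨R i, hR i⟩, fun i => ⟨C i, hC i⟩), ?_, ?_, ?_⟩
  · intro i j hij
    exact h1 i j hij j.2
  · intro i j hij
    exact h2 i j hij j.2
  · intro i j
    have := h5 i j i.2 j.2
    simp only [hR i, hC j, exists_true_left] at this
    exact Bool.eq_iff_iff.mpr this

theorem far (p : Par) (n : ℕ) (hn : p.n = n) (hN : 0 < p.N) (hP : 124 * p.N ≤ p.P)
    (hm : 2 ^ p.m = 16 * p.N) (B : Fin n → Fin n → Bool) (hB : orderedCopyCount H B = 0) :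
    p.N * p.N ≤ (Finset.univ.filter (fun rc : Fin n × Fin n =>
      A p n rc.1 rc.2 ≠ B rc.1 rc.2)).card := by
  by_contra hcon
  apply not_hasCopy B hB
  subst hn
  refine Par.far_copy hN hP hm _ ((Finset.univ.filter (fun rc : Fin p.n × Fin p.n =>
      A p p.n rc.1 rc.2 ≠ B rc.1 rc.2)).image (fun q => ((q.1 : ℕ), (q.2 : ℕ))))
    (lt_of_le_of_lt Finset.card_image_le (by omega)) ?_
  intro r c hr hc hrc
  have h1 : A p p.n ⟨r, hr⟩ ⟨c, hc⟩ = B ⟨r, hr⟩ ⟨c, hc⟩ := by
    by_contra h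
    exact hrc (Finset.mem_image.mpr ⟨(⟨r, hr⟩, ⟨c, hc⟩),
      Finset.mem_filter.mpr ⟨Finset.mem_univ _, h⟩, rfl⟩)
  simp only [hr, hc, exists_true_left, ← h1, A, decide_eq_true_eq]

lemma card_forced (n : ℕ) (f : ℕ → ℕ) :
    (Finset.univ.filter (fun rc : (Fin 66 → Fin n) × (Fin 66 → Fin n) =>
      (rc.2 64 : ℕ) = f (rc.1 64) ∧ (rc.2 65 : ℕ) = rc.2 64 + 1)).card ≤ n ^ 130 := by
  have h1 : (Finset.univ : Finset ((Fin 66 → Fin n) × (Fin 64 → Fin n))).card = n ^ 130 := by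
    rw [Finset.card_univ, Fintype.card_prod, Fintype.card_fun, Fintype.card_fun]
    simp only [Fintype.card_fin]
    ring
  rw [← h1]
  refine Finset.card_le_card_of_injOn
    (fun rc => (rc.1, fun i : Fin 64 => rc.2 (Fin.castLE (by norm_num) i)))
    (fun _ _ => Finset.mem_coe.mpr (Finset.mem_univ _)) ?_
  rintro ⟨R, C⟩ h2 ⟨R', C'⟩ h3 h4
  have h2 := (Finset.mem_filter.mp h2).2
  have h3 := (Finset.mem_filter.mp h3).2
  simp only [Prod.mk.injEq] at h2 h3 h4 ⊢
  obtain ⟨rfl, h5⟩ := h4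
  refine ⟨rfl, funext fun i => ?_⟩
  have e64 : C 64 = C' 64 := Fin.ext (by rw [h2.1, h3.1])
  have e65 : C 65 = C' 65 := Fin.ext (by rw [h2.2, h3.2, e64])
  rcases Nat.lt_or_ge i 64 with h | h
  · exact congrFun h5 ⟨i, h⟩
  · have : i = 64 ∨ i = 65 := by
      rcases i with ⟨i, hi⟩
      simp only [Fin.ext_iff] at h ⊢
      simp only [Fin.coe_ofNat_eq_mod]
      omega
    rcases this with rfl | rfl
    · exact e64
    · exact e65

theorem count_le (p : Par) (n : ℕ) (hN : 0 < p.N) :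
    orderedCopyCount H (A p n) ≤ 2 * n ^ 130 := by
  unfold orderedCopyCount
  rw [Fintype.card_subtype]
  have h1 := card_forced n p.f
  have h2 : (Finset.univ.filter (fun rc : (Fin 66 → Fin n) × (Fin 66 → Fin n) =>
      (rc.1 64 : ℕ) = p.f (rc.2 64) ∧ (rc.1 65 : ℕ) = rc.1 64 + 1)).card ≤ n ^ 130 := by
    refine le_trans ?_ h1
    refine Finset.card_le_card_of_injOn Prod.swap ?_ (Prod.swap_injective.injOn)
    intro rc h
    have h := (Finset.mem_filter.mp h).2
    exact Finset.mem_coe.mpr (Finset.mem_filter.mpr ⟨Finset.mem_univ _, h⟩)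
  refine le_trans (Finset.card_le_card ?_) ((Finset.card_union_le _ _).trans
    (by rw [two_mul]; exact add_le_add h1 h2))
  rintro ⟨R, C⟩ h
  obtain ⟨hR, hC, hA⟩ := (Finset.mem_filter.mp h).2
  simp only at hR hC hA
  have hcopy : p.IsCopy true (fun i => if h : i < 66 then (R ⟨i, h⟩ : ℕ) else 0)
      (fun i => if h : i < 66 then (C ⟨i, h⟩ : ℕ) else 0) := by
    refine ⟨fun i j hij hj => ?_, fun i j hij hj => ?_, fun i j hi hj => ?_⟩
    · simp only [hj, hij.trans hj, dif_pos]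
      exact hR (show (⟨i, hij.trans hj⟩ : Fin 66) < ⟨j, hj⟩ from hij)
    · simp only [hj, hij.trans hj, dif_pos]
      exact hC (show (⟨i, hij.trans hj⟩ : Fin 66) < ⟨j, hj⟩ from hij)
    · simp only [hi, hj, dif_pos]
      have := hA ⟨i, hi⟩ ⟨j, hj⟩
      unfold A H at this
      rw [← this]
      simp only [decide_eq_true_eq]
  rcases hcopy.forced hN with h | h
  · exact Finset.mem_union_left _ (Finset.mem_filter.mpr ⟨Finset.mem_univ _, h⟩)
  · exact Finset.mem_union_right _ (Finset.mem_filter.mpr ⟨Finset.mem_univ _, h⟩)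

end Crest.Agent.H0066
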