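import Crest.Agent.H0066.Defs

set_option autoImplicit false

namespace Crest.Agent.H0066

namespace Par
variable (p : Par)

structure IsCopy (e : Bool) (R C : ℕ → ℕ) : Prop where
  hR : ∀ i j, i < j → j < 66 → R i < R j
  hC : ∀ i j, i < j → j < 66 → C i < C j
  hA : ∀ i j, i < 66 → j < 66 → (p.Rel e (R i) (C j) ↔ Hn i j = true)

variable {p}

lemma IsCopy.symm {e : Bool} {R C : ℕ → ℕ} (h : p.IsCopy e R C) : p.IsCopy (!e) C R :=
  ⟨h.hC, h.hR, fun i j hi hj => by
    rw [← Rel_symm, Hn_symm]; exact h.hA j i hj hi⟩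

lemma IsCopy.R_le {e : Bool} {R C : ℕ → ℕ} (h : p.IsCopy e R C) {i j : ℕ} (hij : i ≤ j)
    (hj : j < 66) : R i ≤ R j := by
  rcases hij.eq_or_lt with rfl | h1
  · exact le_rfl
  · exact (h.hR i j h1 hj).le

lemma Hn_alt {i : ℕ} (hi : i < 64) : Hn i 0 ≠ Hn (i + 1) 0 := by
  have : ∀ i : Fin 64, Hn i 0 ≠ Hn (i + 1) 0 := by decide
  exact this ⟨i, hi⟩

lemma IsCopy.rows_forced {e : Bool} {R C : ℕ → ℕ} (h : p.IsCopy e R C)
    (h0 : p.band (C 0) < 62) : ∀ i, i < 66 → p.band (R i) = min i 64 := by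
  have step : ∀ i, i < 64 → p.band (R i) < p.band (R (i + 1)) := by
    intro i hi
    have h1 := p.band_mono (h.R_le (Nat.le_succ i) (by omega))
    refine lt_of_le_of_ne h1 ?_
    intro heq
    have a1 := h.hA i 0 (by omega) (by omega)
    have a2 := h.hA (i + 1) 0 (by omega) (by omega)
    unfold Rel at a1 a2
    rw [if_pos (Or.inr h0)] at a1 a2
    rw [heq, a2] at a1
    apply Hn_alt hi
    exact Bool.eq_iff_iff.mpr a1.symm
  have up : ∀ k i, i + k ≤ 64 → p.band (R i) + k ≤ p.band (R (i + k)) := by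
    intro k
    induction k with
    | zero => intro i _; simp
    | succ k ih =>
      intro i hi
      have h1 := ih i (by omega)
      have h2 := step (i + k) (by omega)
      have e1 : i + (k + 1) = i + k + 1 := by omega
      rw [e1]; omega
  intro i hi
  have h1 := p.band_le (R 64)
  have h2 := p.band_le (R i)
  rcases Nat.lt_or_ge 64 i with h3 | h3
  · have h4 := up 64 0 le_rfl
    have h5 := p.band_mono (h.R_le h3.le hi)
    simp only [zero_add] at h4
    omega
  · have h4 := up i 0 (by omega)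
    have h5 := up (64 - i) i (by omega)
    have e1 : i + (64 - i) = 64 := by omega
    rw [e1] at h5
    simp only [zero_add] at h4
    omega

lemma sub_lt_S (hN : 0 < p.N) {r : ℕ} (hr : p.P ≤ r) : r < p.Q ↔ p.sub r < p.S := by
  unfold sub Q
  rw [Nat.div_lt_iff_lt_mul (by omega)]; omega

lemma sub_lt_2S (hN : 0 < p.N) {r : ℕ} (hr : p.P ≤ r) : r < p.P1 ↔ p.sub r < 2 * p.S := by
  unfold sub P1
  rw [Nat.div_lt_iff_lt_mul (by omega)]; omega

lemma band_eq_of_sub (hN : 0 < p.N) {r r' : ℕ} (hr : p.P ≤ r) (hr' : p.P ≤ r')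
    (h : p.sub r = p.sub r') : p.band r = p.band r' := by
  have h1 := sub_lt_S hN hr
  have h2 := sub_lt_S hN hr'
  have h3 := sub_lt_2S hN hr
  have h4 := sub_lt_2S hN hr'
  unfold band; split_ifs <;> omega

lemma Rel_congr_marker (hN : 0 < p.N) (e : Bool) (r : ℕ) {c c' : ℕ} (hc : p.P ≤ c) (hc' : p.P ≤ c')
    (hc1 : c < p.P1) (h : p.sub c = p.sub c') : p.Rel e r c ↔ p.Rel e r c' := by
  have hb := band_eq_of_sub hN hc hc' h
  have h64 : p.band c' < 64 := hb ▸ p.band_lt_64.mpr hc1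
  have hms : p.ms c = p.ms c' := by unfold ms; rw [h]
  have hmw : p.mw c = p.mw c' := by unfold mw; rw [h]
  unfold Rel
  rw [hb, hms, hmw]
  simp only [h64, if_true]

lemma role_dummy (e : Bool) (i a w : ℕ) {c c' : ℕ} (hc : p.P2 ≤ c) (hc' : p.P2 ≤ c') :
    p.role e i a w c ↔ p.role e i a w c' := by
  unfold role
  have h1 : ¬ c < p.P2 := by omega
  have h2 : ¬ c' < p.P2 := by omega
  simp only [h1, h2, hc, hc', false_and]

lemma band_dummy {c : ℕ} (hc : p.P1 ≤ c) : p.band c = 64 := by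
  have := p.band_le c
  have := p.band_lt_64 (r := c)
  omega

lemma Rel_congr_dummy (e : Bool) (r : ℕ) {c c' : ℕ} (hc : p.P2 ≤ c) (hc' : p.P2 ≤ c') :
    p.Rel e r c ↔ p.Rel e r c' := by
  have b1 := band_dummy (p.P1_le_P2.trans hc)
  have b2 := band_dummy (p.P1_le_P2.trans hc')
  have h1 : ¬ c < p.P2 := by omega
  have h2 : ¬ c' < p.P2 := by omega
  unfold Rel
  rw [b1, b2, role_dummy _ _ _ _ hc hc']
  simp [h1, h2]

lemma IsCopy.col_not_dummy {e : Bool} {R C : ℕ → ℕ} (h : p.IsCopy e R C) {j : ℕ} (hj : 1 ≤ j)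
    (hj' : j < 62) : C j < p.P2 := by
  by_contra hc
  have hc1 : p.P2 ≤ C j := by omega
  have hc2 : p.P2 ≤ C (j + 1) := hc1.trans (h.hC j (j + 1) (by omega) (by omega)).le
  have a1 := h.hA j j (by omega) (by omega)
  have a2 := h.hA j (j + 1) (by omega) (by omega)
  rw [Rel_congr_dummy e (R j) hc1 hc2, a2] at a1
  have : ∀ j : Fin 62, 1 ≤ j.val → (Hn j (j + 1) = true ∧ Hn j j = false) := by decide
  have := this ⟨j, hj'⟩ hj
  simp only at this
  rw [this.1, this.2] at a1
  simp at a1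

lemma window (e : Bool) {r : ℕ} (hr : p.P ≤ r) (hr2 : r < p.P2) :
    ∃ a0, ∀ c, p.P ≤ c → c < p.P1 → p.Rel e r c → a0 ≤ p.ms c + 2 ∧ p.ms c ≤ a0 + 1 := by
  have b1 : ¬ p.band r < 62 := by rw [band_lt_62]; omega
  by_cases h64 : p.band r < 64
  · refine ⟨p.ms r, fun c hc hc1 h => ?_⟩
    have b2 : ¬ p.band c < 62 := by rw [band_lt_62]; omega
    have b3 : p.band c < 64 := p.band_lt_64.mpr hc1
    unfold Rel at h
    simp only [b1, b2, or_self, if_false, h64, b3, if_true] at h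
    omega
  · refine ⟨2 * p.ct r, fun c hc hc1 h => ?_⟩
    have b2 : ¬ p.band c < 62 := by rw [band_lt_62]; omega
    have b3 : p.band c < 64 := p.band_lt_64.mpr hc1
    unfold Rel at h
    simp only [b1, b2, or_self, if_false, h64, b3, if_true] at h
    unfold role at h
    split_ifs at h <;> omega

lemma IsCopy.col_core (hN : 0 < p.N) {e : Bool} {R C : ℕ → ℕ} (h : p.IsCopy e R C)
    (hR0 : p.P ≤ R 0) (hC0 : p.P ≤ C 0) : p.P1 ≤ C 18 := by
  by_contra hcon
  have hlt : C 18 < p.P1 := by omega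
  have hs := h.symm
  have r1 : p.P ≤ R 1 := hR0.trans (h.R_le (by omega) (by omega))
  have r2 : R 1 < p.P2 := hs.col_not_dummy le_rfl (by omega)
  obtain ⟨a0, ha0⟩ := window e r1 r2
  have cP : ∀ j, j ≤ 18 → p.P ≤ C j := fun j hj => hC0.trans (hs.R_le (by omega) (by omega))
  have cP1 : ∀ j, j ≤ 18 → C j < p.P1 := fun j hj =>
    lt_of_le_of_lt (hs.R_le hj (by omega)) hlt
  have step : ∀ j, j < 18 → p.sub (C j) < p.sub (C (j + 1)) := by
    intro j hj
    have h1 : p.sub (C j) ≤ p.sub (C (j + 1)) := by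
      unfold sub
      exact Nat.div_le_div_right (Nat.sub_le_sub_right (hs.R_le (by omega) (by omega)) _)
    refine lt_of_le_of_ne h1 fun heq => ?_
    have a1 := h.hA 0 j (by omega) (by omega)
    have a2 := h.hA 0 (j + 1) (by omega) (by omega)
    rw [Rel_congr_marker hN e (R 0) (cP j (by omega)) (cP (j + 1) (by omega)) (cP1 j (by omega)) heq,
      a2, Hn_symm 0, Hn_symm 0] at a1
    exact Hn_alt (i := j) (by omega) (Bool.eq_iff_iff.mpr a1.symm)
  have win : ∀ j, 2 ≤ j → j ≤ 18 → 2 * a0 ≤ p.sub (C j) % p.S + 4 ∧ p.sub (C j) % p.S ≤ 2 * a0 + 3 := by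
    intro j hj1 hj2
    have a1 := h.hA 1 j (by omega) (by omega)
    have : ∀ j : Fin 19, 2 ≤ j.val → Hn 1 j = true := by decide
    have := ha0 (C j) (cP j hj2) (cP1 j hj2) (a1.mpr (this ⟨j, by omega⟩ hj1))
    unfold ms at this
    omega
  have s2 := step 2 (by omega); have s3 := step 3 (by omega); have s4 := step 4 (by omega)
  have s5 := step 5 (by omega); have s6 := step 6 (by omega); have s7 := step 7 (by omega)
  have s8 := step 8 (by omega); have s9 := step 9 (by omega); have s10 := step 10 (by omega)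
  have s11 := step 11 (by omega); have s12 := step 12 (by omega); have s13 := step 13 (by omega)
  have s14 := step 14 (by omega); have s15 := step 15 (by omega); have s16 := step 16 (by omega)
  have s17 := step 17 (by omega)
  norm_num at s2 s3 s4 s5 s6 s7 s8 s9 s10 s11 s12 s13 s14 s15 s16 s17
  have w2 := win 2 (by omega) (by omega)
  have w10 := win 10 (by omega) (by omega)
  have w18 := win 18 (by omega) (by omega)
  have t18 := (sub_lt_2S hN (cP 18 le_rfl)).mp hlt
  rcases Nat.lt_or_ge (p.sub (C 10)) p.S with h1 | h1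
  · rw [Nat.mod_eq_of_lt h1] at w10
    rw [Nat.mod_eq_of_lt (by omega)] at w2
    omega
  · rw [Nat.mod_eq_sub_mod h1, Nat.mod_eq_of_lt (by omega)] at w10
    rw [Nat.mod_eq_sub_mod (by omega), Nat.mod_eq_of_lt (by omega)] at w18
    omega

lemma Rel_core (e : Bool) {r c : ℕ} (hr : p.P1 ≤ r) (hc : p.P1 ≤ c) :
    p.Rel e r c ↔ (r < p.P2 ∧ c < p.P2 ∧ p.ct r ≤ p.ct c + 1 ∧ p.ct c ≤ p.ct r + 1 ∧
      M p.m (p.ct r + p.ct c) (p.cx r) (p.cx c)) := by
  unfold Rel
  rw [band_dummy hr, band_dummy hc]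
  simp

lemma cx_mono {c c' : ℕ} (h : c ≤ c') : p.cx c ≤ p.cx c' := by
  unfold cx
  have := Nat.div_le_div_right (c := p.T) (Nat.sub_le_sub_right h p.P1)
  omega

lemma IsCopy.anchor (hN : 0 < p.N) {e : Bool} {R C : ℕ → ℕ} (h : p.IsCopy e R C) :
    R 0 < p.P ∨ C 0 < p.P := by
  by_contra hcon
  have hR0 : p.P ≤ R 0 := by omega
  have hC0 : p.P ≤ C 0 := by omega
  have hs := h.symm
  have c18 := h.col_core hN hR0 hC0
  have r18 := hs.col_core hN hC0 hR0
  have cP : ∀ j, 18 ≤ j → j < 66 → p.P1 ≤ C j := fun j h1 h2 => c18.trans (hs.R_le h1 h2)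
  have rP : ∀ j, 18 ≤ j → j < 66 → p.P1 ≤ R j := fun j h1 h2 => r18.trans (h.R_le h1 h2)
  have key : ∀ j j', 40 ≤ j → j < j' → j' ≤ 43 → p.ct (C j) ≠ p.ct (C j') := by
    intro j j' h1 h2 h3 heq
    have a1 := h.hA j' j (by omega) (by omega)
    have a2 := h.hA j' j' (by omega) (by omega)
    have : ∀ j j' : Fin 44, 40 ≤ j.val → j.val < j'.val → (Hn j' j = true ∧ Hn j' j' = false) := by
      decide
    have := this ⟨j, by omega⟩ ⟨j', by omega⟩ h1 h2
    simp only at this
    rw [this.1, Rel_core e (rP _ (by omega) (by omega)) (cP _ (by omega) (by omega))] at a1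
    rw [this.2, Rel_core e (rP _ (by omega) (by omega)) (cP _ (by omega) (by omega))] at a2
    obtain ⟨b1, b2, b3, b4, b5⟩ := a1.mpr rfl
    have b6 := h.col_not_dummy (j := j') (by omega) (by omega)
    have : false = true := a2.mp ⟨b1, b6, heq ▸ b3, heq ▸ b4,
      heq ▸ M_mono le_rfl (cx_mono (hs.R_le h2.le (by omega))) b5⟩
    simp at this
  have near : ∀ j, 40 ≤ j → j ≤ 43 → p.ct (R 34) ≤ p.ct (C j) + 1 ∧ p.ct (C j) ≤ p.ct (R 34) + 1 := by
    intro j h1 h2
    have a1 := h.hA 34 j (by omega) (by omega)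
    have : ∀ j : Fin 44, 40 ≤ j.val → Hn 34 j = true := by decide
    rw [this ⟨j, by omega⟩ h1, Rel_core e (rP _ (by omega) (by omega)) (cP _ (by omega) (by omega))] at a1
    obtain ⟨b1, b2, b3, b4, b5⟩ := a1.mpr rfl
    exact ⟨b3, b4⟩
  have n0 := near 40 (by omega) (by omega)
  have n1 := near 41 (by omega) (by omega)
  have n2 := near 42 (by omega) (by omega)
  have n3 := near 43 (by omega) (by omega)
  have k01 := key 40 41 (by omega) (by omega) (by omega)
  have k02 := key 40 42 (by omega) (by omega) (by omega)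
  have k03 := key 40 43 (by omega) (by omega) (by omega)
  have k12 := key 41 42 (by omega) (by omega) (by omega)
  have k13 := key 41 43 (by omega) (by omega) (by omega)
  have k23 := key 42 43 (by omega) (by omega) (by omega)
  omega

lemma IsCopy.bands (hN : 0 < p.N) {e : Bool} {R C : ℕ → ℕ} (h : p.IsCopy e R C) :
    (∀ i, i < 66 → p.band (R i) = min i 64) ∧ (∀ i, i < 66 → p.band (C i) = min i 64) := by
  rcases h.anchor hN with h1 | h1
  · have a := h.symm.rows_forced (p.band_lt_62.mpr h1)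
    refine ⟨h.rows_forced ?_, a⟩
    rw [a 0 (by omega)]; decide
  · have a := h.rows_forced (p.band_lt_62.mpr h1)
    refine ⟨a, h.symm.rows_forced ?_⟩
    rw [a 0 (by omega)]; decide

/-- the column forced by a row in a copy -/
def f (p : Par) (r : ℕ) : ℕ := p.P1 + (2 ^ p.m - 1 - p.cx r - 3 * p.N) * p.T + (p.m + 2) / 2

lemma core_eq {c : ℕ} (hc : p.P1 ≤ c) : c = p.P1 + (p.cx c - 3 * p.N) * p.T + p.ct c := by
  unfold cx ct
  have := Nat.div_add_mod' (c - p.P1) p.T
  rw [Nat.add_sub_cancel_left]; omega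

lemma mw_lt (r : ℕ) : p.mw r < 2 := by unfold mw; omega

lemma IsCopy.forced_aux (hN : 0 < p.N) {e : Bool} {R C : ℕ → ℕ} (h : p.IsCopy e R C)
    (he : p.ms (R 62) % 2 = 0 ↔ e = true) : C 64 = p.f (R 64) ∧ C 65 = C 64 + 1 := by
  obtain ⟨bR, bC⟩ := h.bands hN
  have r62 := bR 62 (by omega); have r63 := bR 63 (by omega)
  have r64 := bR 64 (by omega); have r65 := bR 65 (by omega)
  have c62 := bC 62 (by omega); have c63 := bC 63 (by omega)
  have c64 := bC 64 (by omega); have c65 := bC 65 (by omega)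
  norm_num at r62 r63 r64 r65 c62 c63 c64 c65
  have R64 : p.P1 ≤ R 64 := by have := p.band_lt_64 (r := R 64); omega
  have C64 : p.P1 ≤ C 64 := by have := p.band_lt_64 (r := C 64); omega
  have C65 : p.P1 ≤ C 65 := by have := p.band_lt_64 (r := C 65); omega
  have a1 := (h.hA 62 62 (by omega) (by omega)).mpr (by decide)
  have a2 := (h.hA 63 62 (by omega) (by omega)).mpr (by decide)
  have a3 := (h.hA 64 62 (by omega) (by omega)).mpr (by decide)
  have a4 := (h.hA 62 64 (by omega) (by omega)).mpr (by decide)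
  have a5 := (h.hA 63 65 (by omega) (by omega)).mpr (by decide)
  have a6 := (h.hA 64 64 (by omega) (by omega)).mpr (by decide)
  have a7 := (h.hA 64 65 (by omega) (by omega)).not.mpr (by decide)
  rw [Rel_core e R64 C64] at a6
  rw [Rel_core e R64 C65] at a7
  unfold Rel at a1 a2 a3 a4 a5
  simp only [r62, r63, r64, c62, c64, c65] at a1 a2 a3 a4 a5
  norm_num at a1 a2 a3 a4 a5
  have w1 := mw_lt (p := p) (R 62); have w2 := mw_lt (p := p) (R 63)
  have w3 := mw_lt (p := p) (C 62)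
  have e1 : p.ms (R 63) = p.ms (R 62) := by omega
  have e2 : p.ms (C 62) = p.ms (R 62) := by omega
  rw [e1] at a5; rw [e2] at a3
  generalize p.ms (R 62) = a at *
  have he' : ¬ (a % 2 = 0 ↔ (!e) = true) := by
    rw [he]; cases e <;> simp
  unfold role at a3 a4 a5
  rw [if_pos he, if_pos rfl] at a3
  rw [if_neg he'] at a4 a5
  obtain ⟨b1, b2, b3⟩ := a3
  obtain ⟨b4, b5, b6⟩ := a4
  obtain ⟨b7, b8, b9⟩ := a5
  obtain ⟨-, -, -, -, m1⟩ := a6
  have m2 : ¬ M p.m (p.ct (R 64) + p.ct (C 65)) (p.cx (R 64)) (p.cx (C 65)) := fun hm =>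
    a7 ⟨b1, b7, by omega, by omega, hm⟩
  have e3 : p.ct (R 64) + p.ct (C 64) = a := by omega
  have e4 : p.ct (R 64) + p.ct (C 65) = a + 1 := by omega
  rw [e3] at m1; rw [e4] at m2
  have hy : p.cx (C 64) ≤ p.cx (C 65) := cx_mono (h.hC 64 65 (by omega) (by omega)).le
  have ha : a = p.m + 2 := by
    by_contra hne
    apply m2
    apply M_step hne _ (M_mono le_rfl hy m1)
    rcases Nat.eq_zero_or_pos (p.mw (C 62)) with h0 | h0
    · exact Or.inl (b3 h0)
    · exact Or.inr (b9 (by omega))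
  subst ha
  rw [M_mid] at m1
  rw [M_mid'] at m2
  have e5 : p.cx (C 64) = 2 ^ p.m - 1 - p.cx (R 64) := by omega
  have e6 : p.cx (C 65) = p.cx (C 64) := by omega
  have q1 := core_eq C64
  have q2 := core_eq C65
  rw [e6] at q2
  constructor
  · unfold f; rw [← e5]; omega
  · omega

lemma IsCopy.forced (hN : 0 < p.N) {e : Bool} {R C : ℕ → ℕ} (h : p.IsCopy e R C) :
    (C 64 = p.f (R 64) ∧ C 65 = C 64 + 1) ∨ (R 64 = p.f (C 64) ∧ R 65 = R 64 + 1) := by
  by_cases he : p.ms (R 62) % 2 = 0 ↔ e = true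
  · exact Or.inl (h.forced_aux hN he)
  · right
    apply h.symm.forced_aux hN
    obtain ⟨bR, bC⟩ := h.bands hN
    have r62 := bR 62 (by omega)
    have c62 := bC 62 (by omega)
    norm_num at r62 c62
    have a1 := (h.hA 62 62 (by omega) (by omega)).mpr (by decide)
    unfold Rel at a1
    simp only [r62, c62] at a1
    norm_num at a1
    rw [← a1.1]
    revert he
    cases e <;> simp

end Par

end Crest.Agent.H0066
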